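import Vale.Agent.P260.H20.Pres
import Mathlib.RepresentationTheory.Homological.GroupCohomology.LowDegree

/-!
# P260, block A6: invariant cocycles on lists and inhomogeneous group cohomology
-/

open Finsupp CategoryTheory

namespace Vale.Agent.P260.H458

open Vale.Agent.P216.Sl Vale.Agent.P216.PS Vale.Agent.P216 Vale.Agent.P260.A

section Sum

variable {k : Type} [Field k] {α : Type}

theorem dl_nil (f : List α → k) : dl f [] = 0 := by
  rw [dl, bdL_nil, map_zero]

theorem dl_cons (f : List α → k) (a : α) (l : List α) :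
    dl f (a :: l) = f l - dl (fun l => f (a :: l)) l := by
  rw [dl, bdL_cons, map_sub, ev_cons, ev_single, one_mul, dl]

theorem dl_ofFn : ∀ {n : ℕ} (f : List α → k) (x : Fin (n + 1) → α),
    dl f (List.ofFn x) = ∑ i : Fin (n + 1), (-1) ^ (i : ℕ) * f (List.ofFn (x ∘ i.succAbove))
  | 0, f, x => by
    rw [List.ofFn_succ, List.ofFn_zero, dl_cons, dl_nil, Fin.sum_univ_one]
    simp
  | n + 1, f, x => by
    rw [List.ofFn_succ, dl_cons, dl_ofFn]
    conv_rhs => rw [Fin.sum_univ_succ]
    rw [sub_eq_add_neg, ← Finset.sum_neg_distrib]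
    congr 1
    · simp only [Fin.val_zero, pow_zero, one_mul]
      congr 2
    · refine Finset.sum_congr rfl fun i _ => ?_
      have e : (x ∘ (Fin.succ i).succAbove) =
          (Fin.cons (x 0) (fun j => x (i.succAbove j).succ) : Fin (n + 1) → α) := by
        funext j
        refine Fin.cases ?_ (fun j => ?_) j
        · simp
        · simp
      rw [Fin.val_succ, pow_succ, e, List.ofFn_cons]
      simp only [mul_neg, mul_one, neg_mul]
      rfl

omit [Field k] in
theorem exists_ofFn' {n : ℕ} {l : List α} (h : l.length = n) : ∃ x : Fin n → α, List.ofFn x = l := by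
  subst h
  exact ⟨l.get, List.ofFn_get l⟩

theorem dl_map_fun {β : Type} (φ : α → β) : ∀ (f : List β → k) (l : List α),
    dl f (l.map φ) = dl (fun l => f (l.map φ)) l
  | f, [] => by rw [List.map_nil, dl_nil, dl_nil]
  | f, a :: l => by
    rw [List.map_cons, dl_cons, dl_cons, dl_map_fun φ (fun l => f (φ a :: l)) l]
    rfl

theorem dl_congr_len {f g : List α → k} {n : ℕ} (h : ∀ l : List α, l.length = n → f l = g l)
    {l : List α} (hl : l.length = n + 1) : dl f l = dl g l := by
  obtain ⟨x, rfl⟩ := exists_ofFn' hl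
  rw [dl_ofFn, dl_ofFn]
  exact Finset.sum_congr rfl fun i _ => by rw [h _ (by simp)]

end Sum

section Coc

variable {k : Type} [Field k] {G : Type} [Group G]

/-- The inhomogeneous cochain of an invariant function. -/
def inh (n : ℕ) (F : List G → k) : (Fin n → G) → k := fun g => F (List.ofFn (Fin.partialProd g))

/-- The invariant function of an inhomogeneous cochain. -/
def hom (n : ℕ) (f : (Fin n → G) → k) : List G → k := fun l =>
  if l.length = n + 1 then f (fun i => (l.getD i 1)⁻¹ * l.getD (i + 1) 1) else 0

omit [Field k] in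
theorem inv_ofFn {F : List G → k} (hF : Inv F) {n : ℕ} (g : G) (x : Fin n → G) :
    F (List.ofFn fun i => g * x i) = F (List.ofFn x) := by
  rw [← hF g (List.ofFn x), List.map_ofFn]
  rfl

theorem dl_partialProd {F : List G → k} (hF : Inv F) {n : ℕ} (g : Fin (n + 1) → G) :
    dl F (List.ofFn (Fin.partialProd g)) = inh n F (fun i => g i.succ) +
      ∑ j : Fin (n + 1), (-1) ^ ((j : ℕ) + 1) * inh n F (Fin.contractNth j (· * ·) g) := by
  rw [dl_ofFn, Fin.sum_univ_succ]
  congr 1
  · rw [Fin.val_zero, pow_zero, one_mul]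
    have e : Fin.partialProd g ∘ Fin.succAbove 0 =
        fun i => g 0 * Fin.partialProd (fun i => g i.succ) i := by
      funext i
      rw [Function.comp_apply, Fin.succAbove_zero, Fin.partialProd_succ']
      rfl
    rw [e, inv_ofFn hF]
    rfl
  · refine Finset.sum_congr rfl fun j _ => ?_
    rw [inh, Fin.partialProd_contractNth, Fin.val_succ]

theorem hom_ofFn {n : ℕ} (f : (Fin n → G) → k) (x : Fin (n + 1) → G) :
    hom n f (List.ofFn x) = f fun i => (x i.castSucc)⁻¹ * x i.succ := by
  rw [hom, if_pos (List.length_ofFn)]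
  congr 1
  funext i
  rw [List.getD_eq_getElem _ _ (by simp), List.getD_eq_getElem _ _ (by simp),
    List.getElem_ofFn, List.getElem_ofFn]
  rfl

theorem inh_hom {n : ℕ} (f : (Fin n → G) → k) : inh n (hom n f) = f := by
  funext g
  rw [inh, hom_ofFn]
  congr 1
  funext i
  exact Fin.partialProd_right_inv g i

theorem inv_hom {n : ℕ} (f : (Fin n → G) → k) : Inv (hom n f) := by
  intro g l
  by_cases hl : l.length = n + 1
  · rw [hom, hom, if_pos hl, if_pos (by simpa using hl)]
    congr 1
    funext i
    rw [List.getD_eq_getElem _ _ (by simp; omega), List.getD_eq_getElem _ _ (by simp; omega),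
      List.getD_eq_getElem _ _ (by omega), List.getD_eq_getElem _ _ (by omega), List.getElem_map,
      List.getElem_map]
    group
  · rw [hom, hom, if_neg hl, if_neg (by simpa using hl)]

omit [Field k] in
/-- An invariant function vanishes on the lists of length `n + 1` if its inhomogeneous cochain is
zero. -/
theorem eq_of_inh {n : ℕ} {F F' : List G → k} (hF : Inv F) (hF' : Inv F')
    (h : inh n F = inh n F') {l : List G} (hl : l.length = n + 1) : F l = F' l := by
  obtain ⟨x, rfl⟩ := exists_ofFn' hl
  rw [← Fin.partialProd_left_inv x]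
  have e : ∀ y : Fin (n + 1) → G, (x 0 • y : Fin (n + 1) → G) = fun i => x 0 * y i := fun _ => rfl
  rw [e, inv_ofFn hF, inv_ofFn hF']
  exact congrFun h _

end Coc

section Homology

open groupCohomology

variable {k : Type} [Field k] {G : Type} [Group G]

theorem π_eq_zero_iff (A : Rep k G) (m n : ℕ) (hmn : (ComplexShape.up ℕ).prev n = m)
    (z : cocycles A n) : (groupCohomology.π A n).hom z = 0 ↔
      ∃ x, (toCocycles A m n).hom x = z := by
  set K := inhomogeneousCochains A
  let S : ShortComplex (ModuleCat k) := ShortComplex.mk (K.toCycles m n) (K.homologyπ n)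
    (K.toCycles_comp_homologyπ m n)
  have hS : S.Exact := S.exact_of_g_is_cokernel (K.homologyIsCokernel m n hmn)
  constructor
  · intro h
    exact (ShortComplex.moduleCat_exact_iff S).1 hS z h
  · rintro ⟨x, rfl⟩
    exact ShortComplex.moduleCat_zero_apply S x

theorem iCocycles_injective (A : Rep k G) (n : ℕ) :
    Function.Injective (iCocycles A n).hom :=
  (ModuleCat.mono_iff_injective (iCocycles A n)).1 inferInstance

theorem π_surjective (A : Rep k G) (n : ℕ) :
    Function.Surjective (groupCohomology.π A n).hom :=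
  fun x => groupCohomology_induction_on x fun z => ⟨z, rfl⟩

theorem d_iCocycles (A : Rep k G) (n : ℕ) (z : cocycles A n) :
    (inhomogeneousCochains.d A n).hom ((iCocycles A n).hom z) = 0 := by
  have h := (inhomogeneousCochains A).iCycles_d n (n + 1)
  rw [inhomogeneousCochains.d_def] at h
  exact congrArg (fun f => f.hom z) h

theorem iCocycles_toCocycles (A : Rep k G) (m n : ℕ) (x : (inhomogeneousCochains A).X m) :
    (iCocycles A n).hom ((toCocycles A m n).hom x) = ((inhomogeneousCochains A).d m n).hom x := by
  have h := (inhomogeneousCochains A).toCycles_i m n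
  exact congrArg (fun f => f.hom x) h

theorem d_triv (n : ℕ) (f : (Fin n → G) → k) (g : Fin (n + 1) → G) :
    (inhomogeneousCochains.d (Rep.trivial k G k) n).hom f g = f (fun i => g i.succ) +
      ∑ j : Fin (n + 1), (-1) ^ ((j : ℕ) + 1) * f (Fin.contractNth j (· * ·) g) := by
  rw [inhomogeneousCochains.d_hom_apply]
  rfl

/-- The differential of the inhomogeneous cochain. -/
theorem d_inh {F : List G → k} (hF : Inv F) (n : ℕ) :
    (inhomogeneousCochains.d (Rep.trivial k G k) n).hom (inh n F) = inh (n + 1) (dl F) := by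
  funext g
  rw [d_triv]
  exact (dl_partialProd hF g).symm

theorem inv_dl {F : List G → k} (hF : Inv F) : Inv (dl F) := by
  intro g l
  rw [dl_map_fun]
  congr 1
  funext l
  exact hF g l

omit [Field k] in
theorem inh_congr {n : ℕ} {F F' : List G → k} (h : ∀ l : List G, l.length = n + 1 → F l = F' l) :
    inh n F = inh n F' := by
  funext g
  exact h _ List.length_ofFn

theorem d_inh_coc {n : ℕ} {F : List G → k} (hF : CocG n F) :
    (inhomogeneousCochains.d (Rep.trivial k G k) n).hom (inh n F) = 0 := by
  rw [d_inh hF.1]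
  exact inh_congr (F' := fun _ => 0) hF.2

/-- The cocycle in the complex of inhomogeneous cochains. -/
noncomputable def zc (n : ℕ) (f : ZG k G n) : cocycles (Rep.trivial k G k) n :=
  cocyclesMk (inh n (f : List G → k)) (d_inh_coc f.2)

theorem iCocycles_zc (n : ℕ) (f : ZG k G n) :
    (iCocycles (Rep.trivial k G k) n).hom (zc n f) = inh n (f : List G → k) :=
  iCocycles_mk (A := Rep.trivial k G k) (inh n (f : List G → k))
    (d_inh_coc (F := (f : List G → k)) f.2)

variable (k G) in
/-- The linear map to the cohomology. -/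
noncomputable def piG (n : ℕ) : ZG k G n →ₗ[k] groupCohomology (Rep.trivial k G k) n :=
  (groupCohomology.π (Rep.trivial k G k) n).hom ∘ₗ
    { toFun := zc n
      map_add' := fun f g => by
        apply iCocycles_injective
        rw [map_add, iCocycles_zc, iCocycles_zc, iCocycles_zc]
        rfl
      map_smul' := fun c f => by
        apply iCocycles_injective
        rw [map_smul, iCocycles_zc, iCocycles_zc]
        rfl }

theorem piG_apply (n : ℕ) (f : ZG k G n) :
    piG k G n f = (groupCohomology.π (Rep.trivial k G k) n).hom (zc n f) := rfl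

theorem piG_surjective (n : ℕ) : Function.Surjective (piG k G n) := by
  intro x
  obtain ⟨z, rfl⟩ := π_surjective (Rep.trivial k G k) n x
  set f₀ : (Fin n → G) → k := (iCocycles (Rep.trivial k G k) n).hom z with hf₀
  have hc : CocG n (hom n f₀) := by
    refine ⟨inv_hom f₀, fun l hl => ?_⟩
    refine eq_of_inh (n := n + 1) (F' := fun _ => 0) (inv_dl (inv_hom f₀)) (fun _ _ => rfl) ?_ hl
    rw [← d_inh (inv_hom f₀), inh_hom]
    exact d_iCocycles _ n z
  refine ⟨⟨hom n f₀, hc⟩, ?_⟩
  rw [piG_apply]
  congr 1
  apply iCocycles_injective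
  rw [iCocycles_zc]
  exact inh_hom f₀

theorem piG_eq_zero_iff (n : ℕ) (f : ZG k G n) : piG k G n f = 0 ↔ ExG n (f : List G → k) := by
  rw [piG_apply]
  rcases n with _ | m
  · rw [π_eq_zero_iff _ 0 0 CochainComplex.prev_nat_zero]
    constructor
    · rintro ⟨x, hx⟩
      have h1 : (iCocycles (Rep.trivial k G k) 0).hom (zc 0 f) = 0 := by
        rw [← hx, iCocycles_toCocycles, HomologicalComplex.shape _ 0 0 (by simp)]
        rfl
      rw [iCocycles_zc] at h1
      refine ⟨fun _ => 0, fun _ _ => rfl, fun _ _ => rfl, fun l hl => ?_⟩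
      rw [PS.dl_zero_fun]
      exact eq_of_inh (n := 0) (F' := fun _ => 0) f.2.1 (fun _ _ => rfl) h1 hl
    · rintro ⟨h, h0, -, h2⟩
      have e : h = fun _ => 0 := funext (h0 rfl)
      refine ⟨0, ?_⟩
      apply iCocycles_injective
      rw [map_zero, map_zero, iCocycles_zc]
      refine (inh_congr (k := k) (F' := fun _ => 0) fun l hl => ?_).symm
      rw [h2 l hl, e, PS.dl_zero_fun]
  · rw [π_eq_zero_iff _ m (m + 1) (CochainComplex.prev_nat_succ m)]
    constructor
    · rintro ⟨x, hx⟩
      have h1 : (inhomogeneousCochains.d (Rep.trivial k G k) m).hom x =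
          inh (m + 1) (f : List G → k) := by
        rw [← iCocycles_zc, ← hx, iCocycles_toCocycles, inhomogeneousCochains.d_def]
      refine ⟨hom m x, fun h => absurd h (Nat.succ_ne_zero m), inv_hom _, fun l hl => ?_⟩
      refine eq_of_inh (n := m + 1) f.2.1 (inv_dl (inv_hom _)) ?_ hl
      rw [← h1, ← d_inh (inv_hom _), inh_hom]
    · rintro ⟨h, -, h1, h2⟩
      refine ⟨inh m h, ?_⟩
      apply iCocycles_injective
      rw [iCocycles_toCocycles, inhomogeneousCochains.d_def, iCocycles_zc, d_inh h1]
      exact (inh_congr h2).symm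

/-- **Block A6.** -/
theorem pres (k : Type) [Field k] (G : Type) [Group G] (i : ℕ) :
    ∃ π : ZG k G i →ₗ[k] (groupCohomology (Rep.trivial k G k) i), Pres i π :=
  ⟨piG k G i, piG_surjective i, piG_eq_zero_iff i⟩

end Homology

end Vale.Agent.P260.H458
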