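import Vale.Agent.P260.H458.Coch

/-!
# P260, block G1: the cohomology with coefficients in an abelian group does not depend on the
ground ring
-/

open CategoryTheory groupCohomology

namespace Vale.Agent.P260.H458.G1

variable (k k' : Type) [CommRing k] [CommRing k'] {G : Type} [Group G] (V : Type) [AddCommGroup V]
  [Module k V] [Module k' V]

theorem neg_one_pow_smul (j : ℕ) (x : V) : (-1 : k) ^ j • x = (-1 : ℤ) ^ j • x := by
  rcases Nat.even_or_odd j with h | h
  · rw [h.neg_one_pow, h.neg_one_pow, one_smul, one_smul]
  · rw [h.neg_one_pow, h.neg_one_pow, neg_smul, neg_smul, one_smul, one_smul]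

theorem d_ring (n : ℕ) (f : (Fin n → G) → V) :
    ((inhomogeneousCochains.d (Rep.trivial k G V) n).hom f : (Fin (n + 1) → G) → V) =
      (inhomogeneousCochains.d (Rep.trivial k' G V) n).hom f := by
  funext g
  rw [d_triv, d_triv]
  congr 1
  exact Finset.sum_congr rfl fun j _ => by
    rw [neg_one_pow_smul k V, neg_one_pow_smul k' V]

/-- change of the ring on the cocycles -/
noncomputable def tc (n : ℕ) (z : cocycles (Rep.trivial k G V) n) :
    cocycles (Rep.trivial k' G V) n :=
  cocyclesMk (A := Rep.trivial k' G V) ((iCocycles (Rep.trivial k G V) n).hom z)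
    ((d_ring k' k V n ((iCocycles (Rep.trivial k G V) n).hom z)).trans (d_iCocycles _ n z))

theorem iCocycles_tc (n : ℕ) (z : cocycles (Rep.trivial k G V) n) :
    ((iCocycles (Rep.trivial k' G V) n).hom (tc k k' V n z) : (Fin n → G) → V) =
      (iCocycles (Rep.trivial k G V) n).hom z :=
  iCocycles_mk (A := Rep.trivial k' G V) ((iCocycles (Rep.trivial k G V) n).hom z)
    ((d_ring k' k V n ((iCocycles (Rep.trivial k G V) n).hom z)).trans (d_iCocycles _ n z))

/-- change of the ring on the cocycles -/
noncomputable def tcHom (n : ℕ) :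
    cocycles (Rep.trivial k G V) n →+ cocycles (Rep.trivial k' G V) n where
  toFun := tc k k' V n
  map_zero' := by
    apply iCocycles_injective
    refine (iCocycles_tc k k' V n 0).trans ?_
    rw [map_zero, map_zero]
  map_add' x y := by
    apply iCocycles_injective
    refine (iCocycles_tc k k' V n (x + y)).trans ?_
    rw [map_add, map_add]
    exact (congrArg₂ (· + ·) (iCocycles_tc k k' V n x) (iCocycles_tc k k' V n y)).symm

theorem tc_tc (n : ℕ) (z : cocycles (Rep.trivial k G V) n) :
    tc k' k V n (tc k k' V n z) = z := by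
  apply iCocycles_injective
  exact (iCocycles_tc k' k V n _).trans (iCocycles_tc k k' V n z)

theorem ker_iff (n : ℕ) (z : cocycles (Rep.trivial k G V) n) :
    (groupCohomology.π (Rep.trivial k' G V) n).hom (tc k k' V n z) = 0 ↔
      (groupCohomology.π (Rep.trivial k G V) n).hom z = 0 := by
  suffices H : ∀ (k k' : Type) [CommRing k] [CommRing k'] [Module k V] [Module k' V]
      (z : cocycles (Rep.trivial k G V) n), (groupCohomology.π (Rep.trivial k G V) n).hom z = 0 →
      (groupCohomology.π (Rep.trivial k' G V) n).hom (tc k k' V n z) = 0 by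
    refine ⟨fun h => ?_, H k k' z⟩
    have := H k' k _ h
    rwa [tc_tc] at this
  intro k k' _ _ _ _ z h
  rcases n with _ | m
  · rw [π_eq_zero_iff _ 0 0 CochainComplex.prev_nat_zero] at h
    obtain ⟨x, hx⟩ := h
    have h1 : (iCocycles (Rep.trivial k G V) 0).hom z = 0 := by
      rw [← hx, iCocycles_toCocycles, HomologicalComplex.shape _ 0 0 (by simp)]
      rfl
    have h2 : tc k k' V 0 z = 0 := by
      apply iCocycles_injective
      refine (iCocycles_tc k k' V 0 z).trans (h1.trans ?_)
      rw [map_zero]
    rw [h2, map_zero]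
  · rw [π_eq_zero_iff _ m (m + 1) (CochainComplex.prev_nat_succ m)] at h ⊢
    obtain ⟨x, hx⟩ := h
    refine ⟨x, ?_⟩
    apply iCocycles_injective
    rw [iCocycles_toCocycles, inhomogeneousCochains.d_def]
    refine (d_ring k' k V m x).trans (Eq.trans ?_ (iCocycles_tc k k' V (m + 1) z).symm)
    rw [← hx, iCocycles_toCocycles, inhomogeneousCochains.d_def]

/-- The cohomology does not depend on the ring. -/
theorem exists_equiv (n : ℕ) : Nonempty (groupCohomology (Rep.trivial k G V) n ≃+
    groupCohomology (Rep.trivial k' G V) n) := by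
  let a : cocycles (Rep.trivial k G V) n →+ groupCohomology (Rep.trivial k G V) n :=
    (groupCohomology.π (Rep.trivial k G V) n).hom.toAddMonoidHom
  let b : cocycles (Rep.trivial k G V) n →+ groupCohomology (Rep.trivial k' G V) n :=
    (groupCohomology.π (Rep.trivial k' G V) n).hom.toAddMonoidHom.comp (tcHom k k' V n)
  have ha : Function.Surjective a := π_surjective _ n
  have hb : Function.Surjective b := by
    intro x
    obtain ⟨z, rfl⟩ := π_surjective (Rep.trivial k' G V) n x
    refine ⟨tc k' k V n z, ?_⟩
    change (groupCohomology.π (Rep.trivial k' G V) n).hom (tc k k' V n (tc k' k V n z)) = _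
    rw [tc_tc]
  have hab : a.ker = b.ker := by
    ext z
    exact (ker_iff k k' V n z).symm
  exact ⟨(QuotientAddGroup.quotientKerEquivOfSurjective a ha).symm.trans
    ((QuotientAddGroup.quotientAddEquivOfEq hab).trans
      (QuotientAddGroup.quotientKerEquivOfSurjective b hb))⟩

end Vale.Agent.P260.H458.G1
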