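import Vale.Agent.P260.H672.Qc
import Mathlib.RepresentationTheory.Homological.GroupCohomology.LowDegree

/-!
# P260, block G1: cochains over a commutative ring, finite generation of the cohomology
-/

open CategoryTheory

namespace Vale.Agent.P260.H458.G1

open Vale.Agent.P239.M (Ch ext bd bdL cone Sup CFillS SmG sup_bdL ext_congr htp htp_nil)
open Vale.Agent.P260.H672 (exists_pi coc_htp hdG hdG_smul htp_equiv tr ext_tr tr_bdL)

section Sum

variable {k : Type} [CommRing k] {α : Type}

/-- The coboundary of a function on lists. -/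
noncomputable def dM (f : List α → k) (l : List α) : k := ext f (bdL k l)

theorem dM_nil (f : List α → k) : dM f [] = 0 := by
  rw [dM, bdL, map_zero]

theorem ext_cone (f : List α → k) (a : α) (c : Ch k α) :
    ext f (cone a c) = ext (fun l => f (a :: l)) c := by
  rw [cone, Finsupp.lmapDomain_apply, Finsupp.linearCombination_mapDomain]
  rfl

theorem dM_cons (f : List α → k) (a : α) (l : List α) :
    dM f (a :: l) = f l - dM (fun l => f (a :: l)) l := by
  rw [dM, bdL, map_sub, ext_cone, Finsupp.linearCombination_single, one_smul, dM]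

theorem dM_ofFn : ∀ {n : ℕ} (f : List α → k) (x : Fin (n + 1) → α),
    dM f (List.ofFn x) = ∑ i : Fin (n + 1), (-1) ^ (i : ℕ) * f (List.ofFn (x ∘ i.succAbove))
  | 0, f, x => by
    rw [List.ofFn_succ, List.ofFn_zero, dM_cons, dM_nil, Fin.sum_univ_one]
    simp
  | n + 1, f, x => by
    rw [List.ofFn_succ, dM_cons, dM_ofFn]
    conv_rhs => rw [Fin.sum_univ_succ]
    rw [sub_eq_add_neg, ← Finset.sum_neg_distrib]
    congr 1
    · simp only [Fin.val_zero, pow_zero, one_mul]
      congr 2
    · refine Finset.sum_congr rfl fun i _ => ?_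
      have e : (x ∘ (Fin.succ i).succAbove) =
          (Fin.cons (x 0) (fun j => x (i.succAbove j).succ) : Fin (n + 1) → α) := by
        funext j
        refine Fin.cases ?_ (fun j => ?_) j
        · simp
        · simp
      rw [Fin.val_succ, pow_succ, e, List.ofFn_cons]
      simp only [mul_neg, mul_one, neg_mul]
      rfl

theorem dM_map_fun {β : Type} (φ : α → β) : ∀ (f : List β → k) (l : List α),
    dM f (l.map φ) = dM (fun l => f (l.map φ)) l
  | f, [] => by rw [List.map_nil, dM_nil, dM_nil]
  | f, a :: l => by
    rw [List.map_cons, dM_cons, dM_cons, dM_map_fun φ (fun l => f (φ a :: l)) l]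
    rfl

omit [CommRing k] in
theorem exists_ofFn' {n : ℕ} {l : List α} (h : l.length = n) :
    ∃ x : Fin n → α, List.ofFn x = l := by
  subst h
  exact ⟨l.get, List.ofFn_get l⟩

end Sum

section Coc

variable {k : Type} {G : Type} [Group G]

/-- The inhomogeneous cochain of an invariant function. -/
def inh (n : ℕ) (F : List G → k) : (Fin n → G) → k := fun g => F (List.ofFn (Fin.partialProd g))

/-- invariant functions -/
def Inv (f : List G → k) : Prop := ∀ (g : G) (l : List G), f (l.map fun x => g * x) = f l

theorem inv_ofFn {F : List G → k} (hF : Inv F) {n : ℕ} (g : G) (x : Fin n → G) :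
    F (List.ofFn fun i => g * x i) = F (List.ofFn x) := by
  rw [← hF g (List.ofFn x), List.map_ofFn]
  rfl

/-- An invariant function on lists of length `n + 1` is determined by its inhomogeneous cochain. -/
theorem eq_of_inh {n : ℕ} {F F' : List G → k} (hF : Inv F) (hF' : Inv F')
    (h : inh n F = inh n F') {l : List G} (hl : l.length = n + 1) : F l = F' l := by
  obtain ⟨x, rfl⟩ := exists_ofFn' hl
  rw [← Fin.partialProd_left_inv x]
  have e : ∀ y : Fin (n + 1) → G, (x 0 • y : Fin (n + 1) → G) = fun i => x 0 * y i := fun _ => rfl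
  rw [e, inv_ofFn hF, inv_ofFn hF']
  exact congrFun h _

theorem inh_congr {n : ℕ} {F F' : List G → k} (h : ∀ l : List G, l.length = n + 1 → F l = F' l) :
    inh n F = inh n F' := by
  funext g
  exact h _ List.length_ofFn

variable [CommRing k]

/-- The invariant function of an inhomogeneous cochain. -/
def hom (n : ℕ) (f : (Fin n → G) → k) : List G → k := fun l =>
  if l.length = n + 1 then f (fun i => (l.getD i 1)⁻¹ * l.getD (i + 1) 1) else 0

theorem hom_ofFn {n : ℕ} (f : (Fin n → G) → k) (x : Fin (n + 1) → G) :
    hom n f (List.ofFn x) = f fun i => (x i.castSucc)⁻¹ * x i.succ := by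
  rw [hom, if_pos (List.length_ofFn)]
  congr 1
  funext i
  rw [List.getD_eq_getElem _ _ (by simp), List.getD_eq_getElem _ _ (by simp),
    List.getElem_ofFn, List.getElem_ofFn]
  rfl

theorem inh_hom {n : ℕ} (f : (Fin n → G) → k) : inh n (hom n f) = f := by
  funext g
  rw [inh, hom_ofFn]
  congr 1
  funext i
  exact Fin.partialProd_right_inv g i

theorem inv_hom {n : ℕ} (f : (Fin n → G) → k) : Inv (hom n f) := by
  intro g l
  by_cases hl : l.length = n + 1
  · rw [hom, hom, if_pos hl, if_pos (by simpa using hl)]
    congr 1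
    funext i
    rw [List.getD_eq_getElem _ _ (by simp; omega), List.getD_eq_getElem _ _ (by simp; omega),
      List.getD_eq_getElem _ _ (by omega), List.getD_eq_getElem _ _ (by omega), List.getElem_map,
      List.getElem_map]
    group
  · rw [hom, hom, if_neg hl, if_neg (by simpa using hl)]

theorem inv_dM {F : List G → k} (hF : Inv F) : Inv (dM F) := by
  intro g l
  rw [dM_map_fun]
  congr 1
  funext l
  exact hF g l

theorem dM_partialProd {F : List G → k} (hF : Inv F) {n : ℕ} (g : Fin (n + 1) → G) :
    dM F (List.ofFn (Fin.partialProd g)) = inh n F (fun i => g i.succ) +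
      ∑ j : Fin (n + 1), (-1) ^ ((j : ℕ) + 1) * inh n F (Fin.contractNth j (· * ·) g) := by
  rw [dM_ofFn, Fin.sum_univ_succ]
  congr 1
  · rw [Fin.val_zero, pow_zero, one_mul]
    have e : Fin.partialProd g ∘ Fin.succAbove 0 =
        fun i => g 0 * Fin.partialProd (fun i => g i.succ) i := by
      funext i
      rw [Function.comp_apply, Fin.succAbove_zero, Fin.partialProd_succ']
      rfl
    rw [e, inv_ofFn hF]
    rfl
  · refine Finset.sum_congr rfl fun j _ => ?_
    rw [inh, Fin.partialProd_contractNth, Fin.val_succ]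

/-- Finiteness: a cocycle which vanishes on the small lists is a coboundary. -/
theorem ex_of_small (hC : ∀ i, CFillS k G i) (n : ℕ) : ∃ R : Finset G, ∀ f : List G → k,
    Inv f → (∀ l : List G, l.length = n + 2 → dM f l = 0) →
    (∀ l : List G, l.length = n + 1 → SmG R l → f l = 0) →
      ∃ h : List G → k, Inv h ∧ ∀ l : List G, l.length = n + 1 → f l = dM h l := by
  obtain ⟨R, -, π, hπ1, hπe, hπb, hπs⟩ := exists_pi hC ∅ (n + 1)
  refine ⟨R, fun f hf1 hf2 hR => ?_⟩
  have hπ0 : π [] = Finsupp.single [] 1 := hπ1 [] fun x hx => by simp at hx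
  refine ⟨fun l' => ext f (htp hdG π l'), fun g l => ?_, fun l hl => ?_⟩
  · have e1 : htp hdG π (l.map fun x => g * x) = tr g (htp hdG π l) :=
      htp_equiv hdG_smul hπe g l
    simp only []
    rw [e1, ext_tr]
    congr 1
    have : (fun l => f (List.map (fun x => g • x) l)) = f := by
      funext l
      exact hf1 g l
    rw [this]
  · have h1 := coc_htp (f := f) (fun l hl => hf2 l hl) hπ0 hπb
      (fun l hl => Sup.mono (fun l' hl' => hl'.1) (hπs l hl)) hl
    have h2 : ext f (π l) = 0 := by
      have := ext_congr (u := f) (v := fun _ => (0 : k)) (hπs l hl.le) fun l' hl' =>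
        hR l' (hl'.1.trans hl) hl'.2
      rw [this]
      simp [ext, Finsupp.linearCombination_apply]
    rw [h1, h2, add_zero]
    rfl

end Coc

section Homology

open groupCohomology

variable {k : Type} [CommRing k] {G : Type} [Group G]

theorem π_eq_zero_iff (A : Rep k G) (m n : ℕ) (hmn : (ComplexShape.up ℕ).prev n = m)
    (z : cocycles A n) : (groupCohomology.π A n).hom z = 0 ↔
      ∃ x, (toCocycles A m n).hom x = z := by
  set K := inhomogeneousCochains A
  let S : ShortComplex (ModuleCat k) := ShortComplex.mk (K.toCycles m n) (K.homologyπ n)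
    (K.toCycles_comp_homologyπ m n)
  have hS : S.Exact := S.exact_of_g_is_cokernel (K.homologyIsCokernel m n hmn)
  constructor
  · intro h
    exact (ShortComplex.moduleCat_exact_iff S).1 hS z h
  · rintro ⟨x, rfl⟩
    exact ShortComplex.moduleCat_zero_apply S x

theorem iCocycles_injective (A : Rep k G) (n : ℕ) :
    Function.Injective (iCocycles A n).hom :=
  (ModuleCat.mono_iff_injective (iCocycles A n)).1 inferInstance

theorem π_surjective (A : Rep k G) (n : ℕ) :
    Function.Surjective (groupCohomology.π A n).hom :=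
  fun x => groupCohomology_induction_on x fun z => ⟨z, rfl⟩

theorem d_iCocycles (A : Rep k G) (n : ℕ) (z : cocycles A n) :
    (inhomogeneousCochains.d A n).hom ((iCocycles A n).hom z) = 0 := by
  have h := (inhomogeneousCochains A).iCycles_d n (n + 1)
  rw [inhomogeneousCochains.d_def] at h
  exact congrArg (fun f => f.hom z) h

theorem iCocycles_toCocycles (A : Rep k G) (m n : ℕ) (x : (inhomogeneousCochains A).X m) :
    (iCocycles A n).hom ((toCocycles A m n).hom x) = ((inhomogeneousCochains A).d m n).hom x := by
  have h := (inhomogeneousCochains A).toCycles_i m n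
  exact congrArg (fun f => f.hom x) h

theorem d_triv (V : Type) [AddCommGroup V] [Module k V] (n : ℕ) (f : (Fin n → G) → V)
    (g : Fin (n + 1) → G) :
    (inhomogeneousCochains.d (Rep.trivial k G V) n).hom f g = f (fun i => g i.succ) +
      ∑ j : Fin (n + 1), (-1 : k) ^ ((j : ℕ) + 1) • f (Fin.contractNth j (· * ·) g) := by
  rw [inhomogeneousCochains.d_hom_apply]
  rfl

/-- The differential of the inhomogeneous cochain. -/
theorem d_inh {F : List G → k} (hF : Inv F) (n : ℕ) :
    (inhomogeneousCochains.d (Rep.trivial k G k) n).hom (inh n F) = inh (n + 1) (dM F) := by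
  funext g
  rw [d_triv]
  exact (dM_partialProd hF g).symm

/-- the differences of a tuple -/
def dif {n : ℕ} (x : Fin (n + 1) → G) : Fin n → G := fun i => (x i.castSucc)⁻¹ * x i.succ

/-- The cohomology is finitely generated. -/
theorem finite_coh [IsNoetherianRing k] (hC : ∀ i, CFillS k G i) (n : ℕ) :
    Module.Finite k (groupCohomology (Rep.trivial k G k) n) := by
  rcases n with _ | m
  · have h0 : Module.Finite k ((Fin 0 → G) → k) := inferInstance
    have h1 : Module.Finite k (cocycles (Rep.trivial k G k) 0) :=
      Module.Finite.of_injective (M := cocycles (Rep.trivial k G k) 0) (N := (Fin 0 → G) → k) (iCocycles (Rep.trivial k G k) 0).hom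
        (iCocycles_injective (Rep.trivial k G k) 0)
    exact Module.Finite.of_surjective (groupCohomology.π (Rep.trivial k G k) 0).hom (π_surjective (Rep.trivial k G k) 0)
  · obtain ⟨R, hR⟩ := ex_of_small hC (m + 1)
    let ρ : cocycles (Rep.trivial k G k) (m + 1) →ₗ[k] ((Fin (m + 2) → R) → k) :=
      (LinearMap.funLeft k k fun x : Fin (m + 2) → R => dif fun i => (x i : G)) ∘ₗ
        (iCocycles (Rep.trivial k G k) (m + 1)).hom
    have key : ∀ z : cocycles (Rep.trivial k G k) (m + 1), ρ z = 0 → (groupCohomology.π (Rep.trivial k G k) (m + 1)).hom z = 0 := by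
      intro z hz
      set f₀ : (Fin (m + 1) → G) → k := (iCocycles (Rep.trivial k G k) (m + 1)).hom z with hf₀
      obtain ⟨h, h1, h2⟩ := hR (hom (m + 1) f₀) (inv_hom f₀)
        (fun l hl => by
          refine eq_of_inh (n := m + 2) (F' := fun _ => 0) (inv_dM (inv_hom f₀))
            (fun _ _ => rfl) ?_ hl
          rw [← d_inh (inv_hom f₀), inh_hom]
          exact d_iCocycles _ _ z)
        (fun l hl hs => by
          obtain ⟨x, rfl⟩ := exists_ofFn' hl
          have e1 : hom (m + 1) f₀ (List.ofFn x) =
              hom (m + 1) f₀ (List.ofFn fun i => (x 0)⁻¹ * x i) :=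
            (inv_ofFn (inv_hom f₀) _ _).symm
          rw [e1, hom_ofFn]
          exact congrFun hz fun i => ⟨(x 0)⁻¹ * x i, hs _ ((List.mem_ofFn' x _).2 ⟨0, rfl⟩) _
            ((List.mem_ofFn' x _).2 ⟨i, rfl⟩)⟩)
      rw [π_eq_zero_iff _ m (m + 1) (CochainComplex.prev_nat_succ m)]
      refine ⟨inh m h, ?_⟩
      apply iCocycles_injective
      rw [iCocycles_toCocycles, inhomogeneousCochains.d_def, d_inh h1]
      rw [← inh_congr h2, inh_hom]
    have h1 : Module.Finite k (cocycles (Rep.trivial k G k) (m + 1) ⧸ LinearMap.ker ρ) := by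
      have : Module.Finite k (LinearMap.range ρ) := inferInstance
      exact Module.Finite.equiv (LinearMap.quotKerEquivRange ρ).symm
    refine Module.Finite.of_surjective ((LinearMap.ker ρ).liftQ (groupCohomology.π (Rep.trivial k G k) (m + 1)).hom
      fun z hz => key z hz) fun x => ?_
    obtain ⟨z, rfl⟩ := π_surjective (Rep.trivial k G k) (m + 1) x
    exact ⟨Submodule.Quotient.mk z, rfl⟩

end Homology

end Vale.Agent.P260.H458.G1
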