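import Mathlib

/-!
# P260, block G1: multiplication by `q` on a finitely generated abelian group
-/

namespace Vale.Agent.P260.H458.G1

/-- The kernel and the cokernel of an endomorphism of a finite group have the same cardinality. -/
theorem card_fin {T : Type*} [AddCommGroup T] [Finite T] (f : T →+ T) :
    Nat.card (T ⧸ f.range) = Nat.card f.ker := by
  have h1 := AddSubgroup.card_eq_card_quotient_mul_card_addSubgroup f.range
  have h2 := AddSubgroup.card_eq_card_quotient_mul_card_addSubgroup f.ker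
  have h3 : Nat.card (T ⧸ f.ker) = Nat.card f.range :=
    Nat.card_congr (QuotientAddGroup.quotientKerEquivRange f).toEquiv
  rw [h3] at h2
  have h4 : 0 < Nat.card f.range := Nat.card_pos
  rw [h2, mul_comm] at h1
  exact (Nat.eq_of_mul_eq_mul_right h4 h1.symm).symm ▸ rfl

/-- multiplication by `q` -/
def mulq (q : ℕ) (A : Type*) [AddCommGroup A] : A →+ A := nsmulAddMonoidHom q

theorem mulq_apply (q : ℕ) {A : Type*} [AddCommGroup A] (x : A) : mulq q A x = q • x := rfl

theorem card_congr {A B : Type*} [AddCommGroup A] [AddCommGroup B] (e : A ≃+ B) (q : ℕ) :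
    Nat.card (A ⧸ (mulq q A).range) = Nat.card (B ⧸ (mulq q B).range) ∧
      Nat.card (mulq q A).ker = Nat.card (mulq q B).ker := by
  constructor
  · refine Nat.card_congr (QuotientAddGroup.congr _ _ e ?_).toEquiv
    ext y
    constructor
    · rintro ⟨_, ⟨x, rfl⟩, rfl⟩
      exact ⟨e x, by simp [mulq_apply]⟩
    · rintro ⟨x, rfl⟩
      exact ⟨mulq q A (e.symm x), ⟨_, rfl⟩, by simp [mulq_apply]⟩
  · refine Nat.card_congr ⟨fun x => ⟨e x, ?_⟩, fun y => ⟨e.symm y, ?_⟩, fun x => ?_, fun y => ?_⟩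
    · have h : q • (x : A) = 0 := x.2
      change q • e (x : A) = 0
      rw [← map_nsmul, h, map_zero]
    · have h : q • (y : B) = 0 := y.2
      change q • e.symm (y : B) = 0
      rw [← map_nsmul, h, map_zero]
    · simp
    · simp

theorem card_prod (n q : ℕ) [NeZero q] (T : Type*) [AddCommGroup T] [Finite T] :
    Nat.card (((Fin n → ℤ) × T) ⧸ (mulq q ((Fin n → ℤ) × T)).range) =
      q ^ n * Nat.card (mulq q ((Fin n → ℤ) × T)).ker := by
  have hq : (q : ℤ) ≠ 0 := by exact_mod_cast NeZero.ne q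
  let φ : ((Fin n → ℤ) × T) →+ (Fin n → ZMod q) × (T ⧸ (mulq q T).range) :=
    AddMonoidHom.prodMap (AddMonoidHom.pi fun i =>
      (Int.castAddHom (ZMod q)).comp (Pi.evalAddMonoidHom (fun _ => ℤ) i))
      (QuotientAddGroup.mk' _)
  have hφ : Function.Surjective φ := by
    rintro ⟨x, t⟩
    obtain ⟨t, rfl⟩ := QuotientAddGroup.mk'_surjective _ t
    refine ⟨(fun i => ((x i).cast : ℤ), t), ?_⟩
    refine Prod.ext ?_ rfl
    funext i
    exact ZMod.intCast_zmod_cast (x i)
  have hk : φ.ker = (mulq q ((Fin n → ℤ) × T)).range := by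
    ext ⟨x, t⟩
    constructor
    · intro h
      have h1 : ∀ i, ((x i : ℤ) : ZMod q) = 0 := fun i => congrFun (congrArg Prod.fst h) i
      have h2 : (QuotientAddGroup.mk' (mulq q T).range) t = 0 := congrArg Prod.snd h
      obtain ⟨s, hs⟩ := (QuotientAddGroup.eq_zero_iff t).1 h2
      choose y hy using fun i => (ZMod.intCast_zmod_eq_zero_iff_dvd (x i) q).1 (h1 i)
      refine ⟨(y, s), Prod.ext ?_ hs⟩
      funext i
      change (q • y) i = x i
      rw [hy i]
      simp
    · rintro ⟨⟨y, s⟩, h⟩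
      have h1 : x = q • y := (congrArg Prod.fst h).symm
      have h2 : t = q • s := (congrArg Prod.snd h).symm
      refine Prod.ext ?_ ?_
      · funext i
        change ((x i : ℤ) : ZMod q) = 0
        rw [h1]
        simp
      · change (QuotientAddGroup.mk' (mulq q T).range) t = 0
        exact (QuotientAddGroup.eq_zero_iff t).2 ⟨s, h2.symm⟩
  rw [← hk, Nat.card_congr (QuotientAddGroup.quotientKerEquivOfSurjective φ hφ).toEquiv,
    Nat.card_prod, card_fin (mulq q T)]
  congr 1
  · rw [Nat.card_fun, Nat.card_zmod, Nat.card_eq_fintype_card, Fintype.card_fin]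
  · refine Nat.card_congr ⟨fun t => ⟨(0, t), ?_⟩, fun x => ⟨x.1.2, ?_⟩, fun t => rfl, fun x => ?_⟩
    · change q • ((0 : Fin n → ℤ), (t : T)) = 0
      rw [Prod.smul_mk, smul_zero]
      exact Prod.ext rfl t.2
    · exact congrArg Prod.snd (show q • (x.1 : (Fin n → ℤ) × T) = 0 from x.2)
    · obtain ⟨⟨y, t⟩, h⟩ := x
      have h1 : q • y = 0 := congrArg Prod.fst (show q • ((y, t) : (Fin n → ℤ) × T) = 0 from h)
      have h2 : y = 0 := by
        funext i
        have := congrFun h1 i
        simpa [NeZero.ne q] using this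
      subst h2
      rfl

/-- For a finitely generated abelian group. -/
theorem card_fg (A : Type*) [AddCommGroup A] [AddGroup.FG A] : ∃ n : ℕ, ∀ (q : ℕ) [NeZero q],
    Nat.card (A ⧸ (mulq q A).range) = q ^ n * Nat.card (mulq q A).ker := by
  obtain ⟨n, ι, _, p, hp, e, ⟨f⟩⟩ := AddCommGroup.equiv_free_prod_directSum_zmod A
  have : ∀ i, NeZero (p i ^ e i) := fun i => ⟨pow_ne_zero _ (hp i).ne_zero⟩
  have hfin : Finite (DirectSum ι fun i => ZMod (p i ^ e i)) := by
    classical
    exact Finite.of_equiv _ (DirectSum.addEquivProd fun i => ZMod (p i ^ e i)).symm.toEquiv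
  refine ⟨n, fun q _ => ?_⟩
  have g : A ≃+ (Fin n → ℤ) × DirectSum ι fun i => ZMod (p i ^ e i) :=
    f.trans (AddEquiv.prodCongr (Finsupp.linearEquivFunOnFinite ℤ ℤ (Fin n)).toAddEquiv
      (AddEquiv.refl _))
  rw [(card_congr g q).1, (card_congr g q).2]
  exact card_prod n q _

end Vale.Agent.P260.H458.G1
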