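import Vale.Agent.P260.H458.Les
import Vale.Agent.P260.Spec4

/-!
# P260, block G1: the Euler characteristic does not depend on the field
-/

open CategoryTheory groupCohomology

namespace Vale.Agent.P260.H458.G1

open Vale.Agent.P239.M (CFillS)

theorem fg_of (M : Type*) [AddCommGroup M] [inst : Module ℤ M] [h : Module.Finite ℤ M] :
    AddGroup.FG M := by
  obtain rfl : inst = AddCommGroup.toIntModule M := Subsingleton.elim _ _
  exact Module.Finite.iff_addGroup_fg.1 h

theorem mula_eq (q : ℕ) (M : Type*) [AddCommGroup M] [Module ℤ M] : mula (q : ℤ) M = mulq q M := by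
  ext x
  exact Nat.cast_smul_eq_nsmul ℤ q x

variable {G : Type} [Group G]

/-- The count in terms of the integral cohomology. -/
theorem card_HH (q : ℕ) [Fact q.Prime] (n : ℕ) :
    Nat.card (HH q G n) = Nat.card (HZ G ℤ n ⧸ (mulq q (HZ G ℤ n)).range) *
      Nat.card (mulq q (HZ G ℤ (n + 1))).ker := by
  have hq : NeZero q := ⟨(Fact.out (p := q.Prime)).ne_zero⟩
  obtain ⟨e⟩ := exists_equiv (ZMod q) ℤ (G := G) (ZMod q) n
  rw [Nat.card_congr e.toEquiv, card_bock (q : ℤ) G (Int.castAddHom (ZMod q)).toIntLinearMap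
    (by simp) (fun x hx => ?_) (fun x y h => ?_) (fun x => ?_) n, mula_eq, mula_eq]
  · obtain ⟨y, hy⟩ := (ZMod.intCast_zmod_eq_zero_iff_dvd x q).1 hx
    exact ⟨y, hy.symm⟩
  · exact mul_left_cancel₀ (by exact_mod_cast NeZero.ne q) h
  · exact ⟨ZMod.cast x, ZMod.intCast_zmod_cast x⟩

theorem card_zero (q : ℕ) [Fact q.Prime] : Nat.card (mulq q (HZ G ℤ 0)).ker = 1 := by
  have hq : NeZero q := ⟨(Fact.out (p := q.Prime)).ne_zero⟩
  rw [← mula_eq, card_ker_zero (q : ℤ) G (Int.castAddHom (ZMod q)).toIntLinearMap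
    (by simp) (fun x hx => ?_) (fun x y h => ?_) (fun x => ?_)]
  · obtain ⟨y, hy⟩ := (ZMod.intCast_zmod_eq_zero_iff_dvd x q).1 hx
    exact ⟨y, hy.symm⟩
  · exact mul_left_cancel₀ (by exact_mod_cast NeZero.ne q) h
  · exact ⟨ZMod.cast x, ZMod.intCast_zmod_cast x⟩

/-- The Euler characteristic in terms of the ranks of the integral cohomology. -/
theorem chi_eq (hC : ∀ i, CFillS ℤ G i) : ∃ ν : ℕ → ℕ, ∀ (q : ℕ) [Fact q.Prime], Fin4 q G →
    chi q G = (ν 0 : ℤ) - ν 1 + ν 2 - ν 3 + ν 4 := by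
  have hfin : ∀ n, Module.Finite ℤ (HZ G ℤ n) := fun n => finite_coh hC n
  have hfg : ∀ n, AddGroup.FG (HZ G ℤ n) := fun n => fg_of (HZ G ℤ n)
  choose ν hν using fun n => card_fg (HZ G ℤ n)
  refine ⟨ν, fun q _ h => ?_⟩
  have hqp : q.Prime := Fact.out
  have hq : NeZero q := ⟨hqp.ne_zero⟩
  have hcard : ∀ n ≤ 4, q ^ hd q G n = q ^ ν n * Nat.card (mulq q (HZ G ℤ n)).ker *
      Nat.card (mulq q (HZ G ℤ (n + 1))).ker := by
    intro n hn
    have := h.fin n hn
    rw [← hν n q, ← card_HH, hd, Module.natCard_eq_pow_finrank (K := ZMod q), Nat.card_zmod]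
  have hker : ∀ n ≤ 5, ∃ b, Nat.card (mulq q (HZ G ℤ n)).ker = q ^ b := by
    intro n hn
    rcases n with _ | n
    · exact ⟨0, by rw [card_zero, pow_zero]⟩
    · obtain ⟨b, -, hb⟩ := (Nat.dvd_prime_pow hqp).1 (Dvd.intro_left _ (hcard n (by omega)).symm)
      exact ⟨b, hb⟩
  obtain ⟨b1, hb1⟩ := hker 1 (by norm_num)
  obtain ⟨b2, hb2⟩ := hker 2 (by norm_num)
  obtain ⟨b3, hb3⟩ := hker 3 (by norm_num)
  obtain ⟨b4, hb4⟩ := hker 4 (by norm_num)
  have h5 : Nat.card (mulq q (HZ G ℤ 5)).ker = 1 := by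
    have h1 := card_HH (G := G) q 5
    have h2 : Nat.card (HH q G 5) = 1 := by
      have := h.five
      exact Nat.card_unique
    rw [h2, hν 5 q] at h1
    exact (Nat.eq_one_of_mul_eq_one_left (Nat.eq_one_of_mul_eq_one_right h1.symm))
  have g0 := hcard 0 (by norm_num)
  have g1 := hcard 1 (by norm_num)
  have g2 := hcard 2 (by norm_num)
  have g3 := hcard 3 (by norm_num)
  have g4 := hcard 4 (by norm_num)
  rw [card_zero, hb1, mul_one, ← pow_add] at g0
  rw [hb1, hb2, ← pow_add, ← pow_add] at g1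
  rw [hb2, hb3, ← pow_add, ← pow_add] at g2
  rw [hb3, hb4, ← pow_add, ← pow_add] at g3
  rw [hb4, h5, mul_one, ← pow_add] at g4
  have f0 := Nat.pow_right_injective hqp.two_le g0
  have f1 := Nat.pow_right_injective hqp.two_le g1
  have f2 := Nat.pow_right_injective hqp.two_le g2
  have f3 := Nat.pow_right_injective hqp.two_le g3
  have f4 := Nat.pow_right_injective hqp.two_le g4
  simp only [chi, f0, f1, f2, f3, f4]
  push_cast
  ring

end Vale.Agent.P260.H458.G1

namespace Vale.Agent.P260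

/-- **Block G1.** -/
theorem blockG1 : BlockG1 := by
  intro G _ hC hF q l _ _
  obtain ⟨ν, hν⟩ := H458.G1.chi_eq hC
  rw [hν q (hF q), hν l (hF l)]

end Vale.Agent.P260
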