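import Vale.Agent.P260.H458.Chg
import Vale.Agent.P260.H458.Fgz
import Mathlib.RepresentationTheory.Homological.GroupCohomology.LongExactSequence

/-!
# P260, block G1: the long exact sequence of `0 → k → k → k/a → 0`
-/

open CategoryTheory groupCohomology

namespace Vale.Agent.P260.H458.G1

section

variable {k : Type} [CommRing k] {G : Type} [Group G]

/-- The map of a multiplication. -/
theorem map_of_smul {A : Rep k G} (f : A ⟶ A) (a : k) (hf : ∀ x : A, f.hom x = a • x) (n : ℕ)
    (x : groupCohomology A n) : (groupCohomology.map (MonoidHom.id G) f n).hom x = a • x := by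
  obtain ⟨z, rfl⟩ := π_surjective A n x
  have h1 := congrArg (fun F => F.hom z) (groupCohomology.π_map (MonoidHom.id G) f n)
  have h2 : (groupCohomology.cocyclesMap (MonoidHom.id G) f n).hom z = a • z := by
    apply iCocycles_injective
    have h3 := congrArg (fun F => F.hom z)
      (HomologicalComplex.cyclesMap_i (cochainsMap (MonoidHom.id G) f) n)
    refine h3.trans ?_
    rw [map_smul]
    funext g
    exact hf _
  refine h1.trans ?_
  change (groupCohomology.π A n).hom ((groupCohomology.cocyclesMap (MonoidHom.id G) f n).hom z) = _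
  rw [h2, map_smul]

theorem inj_zero {X : ShortComplex (Rep k G)} (hX : X.ShortExact) :
    Function.Injective (groupCohomology.map (MonoidHom.id G) X.f 0).hom := by
  have hm : Mono X.f := hX.mono_f
  exact (ModuleCat.mono_iff_injective _).1 (inferInstance : Mono (groupCohomology.map
    (MonoidHom.id G) X.f 0))

end

section Bock

variable {k : Type} [CommRing k] (a : k) (G : Type) [Group G] {V : Type} [AddCommGroup V]
  [Module k V] (r : k →ₗ[k] V)

/-- multiplication by `a` -/
noncomputable def mulRep : Rep.trivial k G k ⟶ Rep.trivial k G k :=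
  Rep.ofHom ⟨a • LinearMap.id, fun g => by ext; simp⟩

/-- reduction -/
noncomputable def redRep : Rep.trivial k G k ⟶ Rep.trivial k G V :=
  Rep.ofHom ⟨r, fun g => by ext; simp⟩

/-- The short exact sequence. -/
noncomputable def bX (h0 : r a = 0) : ShortComplex (Rep k G) :=
  { X₁ := Rep.trivial k G k
    X₂ := Rep.trivial k G k
    X₃ := Rep.trivial k G V
    f := mulRep a G
    g := redRep G r
    zero := by
      ext
      change r (a * 1) = 0
      rw [mul_one, h0] }

theorem bX_exact (h0 : r a = 0) (h1 : ∀ x, r x = 0 → ∃ y, a * y = x)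
    (h2 : ∀ x y : k, a * x = a * y → x = y) (h3 : Function.Surjective r) :
    (bX a G r h0).ShortExact :=
  { exact := (forget₂ (Rep k G) (ModuleCat k)).reflects_exact_of_faithful _ <|
      (ShortComplex.moduleCat_exact_iff _).2 fun x hx => h1 x hx
    mono_f := (Rep.mono_iff_injective _).2 fun x y h => h2 x y h
    epi_g := (Rep.epi_iff_surjective _).2 h3 }

/-- multiplication by `a` on a module -/
def mula (M : Type*) [AddCommGroup M] [Module k M] : M →+ M := DistribSMul.toAddMonoidHom M a

/-- `H^n(G; k)` -/
noncomputable abbrev HZ (k : Type) [CommRing k] (n : ℕ) : ModuleCat k :=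
  groupCohomology (Rep.trivial k G k) n

/-- The universal coefficient count. -/
theorem card_bock (h0 : r a = 0) (h1 : ∀ x, r x = 0 → ∃ y, a * y = x)
    (h2 : ∀ x y : k, a * x = a * y → x = y) (h3 : Function.Surjective r) (n : ℕ) :
    Nat.card (groupCohomology (Rep.trivial k G V) n) =
      Nat.card (HZ G k n ⧸ (mula a (HZ G k n)).range) *
        Nat.card (mula a (HZ G k (n + 1))).ker := by
  have hX := bX_exact a G r h0 h1 h2 h3
  let α : ∀ i, HZ G k i →ₗ[k] HZ G k i := fun i =>
    (groupCohomology.map (MonoidHom.id G) (bX a G r h0).f i).hom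
  let b : HZ G k n →ₗ[k] groupCohomology (Rep.trivial k G V) n :=
    (groupCohomology.map (MonoidHom.id G) (bX a G r h0).g n).hom
  let d : groupCohomology (Rep.trivial k G V) n →ₗ[k] HZ G k (n + 1) :=
    (groupCohomology.δ hX n (n + 1) rfl).hom
  have e1 : Function.Exact d (α (n + 1)) :=
    (ShortComplex.ShortExact.moduleCat_exact_iff_function_exact _).1
      (mapShortComplex₁_exact hX (i := n) (j := n + 1) rfl)
  have e2 : Function.Exact (α n) b :=
    (ShortComplex.ShortExact.moduleCat_exact_iff_function_exact _).1
      (mapShortComplex₂_exact hX n)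
  have e3 : Function.Exact b d :=
    (ShortComplex.ShortExact.moduleCat_exact_iff_function_exact _).1
      (mapShortComplex₃_exact hX (i := n) (j := n + 1) rfl)
  have ha : ∀ i (x : HZ G k i), α i x = a • x := fun i x =>
    map_of_smul (A := Rep.trivial k G k) (mulRep a G) a (fun x => rfl) i x
  -- the range and the kernel of the connecting map
  have h1 := AddSubgroup.card_eq_card_quotient_mul_card_addSubgroup d.toAddMonoidHom.ker
  have h2 : Nat.card (groupCohomology (Rep.trivial k G V) n ⧸ d.toAddMonoidHom.ker) =
      Nat.card (mula a (HZ G k (n + 1))).ker := by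
    rw [Nat.card_congr (QuotientAddGroup.quotientKerEquivRange d.toAddMonoidHom).toEquiv]
    have : d.toAddMonoidHom.range = (mula a (HZ G k (n + 1))).ker := by
      ext x
      have := e1 x
      rw [ha] at this
      exact this.symm
    rw [this]
  have h3 : Nat.card d.toAddMonoidHom.ker = Nat.card (HZ G k n ⧸ (mula a (HZ G k n)).range) := by
    have e4 : d.toAddMonoidHom.ker = b.toAddMonoidHom.range := by
      ext x
      exact e3 x
    have e5 : (mula a (HZ G k n)).range = b.toAddMonoidHom.ker := by
      ext x
      have := e2 x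
      constructor
      · rintro ⟨y, rfl⟩
        exact (e2 _).2 ⟨y, ha n y⟩
      · intro hx
        obtain ⟨y, hy⟩ := (e2 x).1 hx
        exact ⟨y, (ha n y).symm.trans hy⟩
    rw [e4, e5]
    exact (Nat.card_congr (QuotientAddGroup.quotientKerEquivRange b.toAddMonoidHom).toEquiv).symm
  rw [h1, h2, h3, mul_comm]

theorem card_ker_zero (h0 : r a = 0) (h1 : ∀ x, r x = 0 → ∃ y, a * y = x)
    (h2 : ∀ x y : k, a * x = a * y → x = y) (h3 : Function.Surjective r) :
    Nat.card (mula a (HZ G k 0)).ker = 1 := by
  have hX := bX_exact a G r h0 h1 h2 h3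
  let α : HZ G k 0 →ₗ[k] HZ G k 0 :=
    (groupCohomology.map (MonoidHom.id G) (bX a G r h0).f 0).hom
  have inj0 : Function.Injective α := inj_zero hX
  have ha : ∀ x : HZ G k 0, α x = a • x := fun x =>
    map_of_smul (A := Rep.trivial k G k) (mulRep a G) a (fun x => rfl) 0 x
  have h : (mula a (HZ G k 0)).ker = ⊥ := by
    rw [eq_bot_iff]
    intro x hx
    have h1 : a • x = 0 := hx
    rw [← ha] at h1
    exact inj0 (h1.trans (map_zero _).symm)
  rw [h]
  exact AddSubgroup.card_bot

end Bock

end Vale.Agent.P260.H458.G1
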